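import Vale.Agent.P157.Low.Parisi
import Vale.Agent.P166F.Ent

/-!
P157: objects of the variational formula for every bounded Borel potential.
-/

namespace Vale.Agent.P157F

open MeasureTheory Vale.Agent.P157 Vale.Agent.P157.Low Vale.Agent.P166F

variable {k : ℕ}

/-- The logarithm of the innermost average of `exp f`. -/
noncomputable def topLog (f : ℝ → ℝ) (p : Fin (k + 1) → ℝ) (y : ℝ) : ℝ := Real.log (topW f p y)

/-- The value of one pattern at an overlap path. -/
noncomputable def patVal (f : ℝ → ℝ) (m p : Fin (k + 1) → ℝ) : ℝ :=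
  potUp m (incr p) (topLog f p) (k + 1) 0

/-- The values of the variational formula on the cube. -/
def cubeValues (f : ℝ → ℝ) (α : ℝ) : Set ℝ :=
  {v | ∃ (k : ℕ) (m p : Fin (k + 1) → ℝ), Levels m ∧ Path p ∧ v = α * patVal f m p + entS m p}

/-- The entropy of an overlap path on the sphere, with `T i = ∫ 1 - max (p i) r`. -/
noncomputable def sphEnt (m p : Fin (k + 1) → ℝ) : ℝ :=
  (p 0 / tail (stepLaw m p) (p 0) + Real.log (1 - p (Fin.last k)) +
    ∑ i : Fin k, Real.log (tail (stepLaw m p) (p i.castSucc) / tail (stepLaw m p) (p i.succ)) /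
      m i.succ) / 2

/-- The values of the variational formula on the sphere. -/
def sphValues (f : ℝ → ℝ) (α : ℝ) : Set ℝ :=
  {v | ∃ (k : ℕ) (m p : Fin (k + 1) → ℝ), Levels m ∧ Path p ∧ v = α * patVal f m p + sphEnt m p}

/-- Smooth potentials with bounded derivatives and bounded `x f' x`. -/
structure Sft (f : ℝ → ℝ) : Prop where
  smf : Smf f
  flat : ∃ D, ∀ x, |x * deriv f x| ≤ D

end Vale.Agent.P157F
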