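import Vale.Agent.P157F.Low.Value
import Vale.Agent.P157F.Low.Sym
import Vale.Agent.P157F.Low.PQ
import Vale.Agent.P157F.Low.QLimit
import Vale.Agent.P157F.Low.Monotone

/-!
P157: the lower bound on the cube.
-/

namespace Vale.Agent.P157F

open MeasureTheory Filter Vale.Agent.P157 Vale.Agent.P157.Low Vale.Agent.P166F
open scoped Topology RealInnerProductSpace

variable {f : ℝ → ℝ} {B α : ℝ} {A : Arr}

lemma abs_oldR_le {N : ℕ} (z z' : Cfg N) : |oldR z z'| ≤ 1 := by
  refine (abs_real_inner_le_norm _ _).trans ?_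
  rw [norm_cubeVec (Nat.succ_pos N), norm_cubeVec (Nat.succ_pos N), one_mul]

/-- A discretisation at each scale with increasing weights and monotone rounding. -/
lemma exists_discrs (A : Arr) :
    ∃ D : ∀ K, Discr A (K + 2), ∀ K, Levels (D K).C.cdf ∧ Monotone (D K).τ := by
  choose D hD using fun K : ℕ => Vale.Agent.P166F.Low.exists_discr_mono A (K := K + 2) (by omega)
  exact ⟨D, hD⟩

lemma path_discr {K : ℕ} (D : Discr A (K + 2)) : Path D.q where
  mono := D.monoq
  nonneg j := (D.rangeq j).1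
  ltOne j := ((D.levelParam (by omega)).rangeq j).2

/-- The squared slopes at the levels of a fine discretisation return the overlap. -/
theorem tendsto_stationary (hf : Pot f B) (hs : Sft f) (hα : 0 < α) {Ns : ℕ → ℕ}
    (hN : Tendsto Ns atTop atTop) (Ps : ℕ → ℕ) (xs : ∀ j, Fin (Ps j) → ℝ) (hxs : ∀ j, xs j ∈ box (Ps j))
    (hgrow : Tendsto (fun j => ((Ps j : ℝ) + 1) ^ 2 * strength (Ns j) ^ 2 / ((Ns j : ℝ) + 1)) atTop (𝓝 0))
    (h : Conv (fun j => pSys hf (Ns j) (α * ((Ns j : ℝ) + 2)) 0 (xs j)) A)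
    (D : ∀ K, Discr A (K + 2)) (hD : ∀ K, Levels (D K).C.cdf ∧ Monotone (D K).τ) :
    Tendsto (fun K => ∫ R, |R 0 1 -
      slopeSq (D K).C.cdf (fun l => α * (D K).rval f l) ((D K).τ (R 0 1))| ∂A.law 2) atTop (𝓝 0) := by
  set g : ℕ → ℝ → ℝ := fun K t => slopeSq (D K).C.cdf (fun l => α * (D K).rval f l) ((D K).τ t)
    with hg
  refine tendsto_mean_of_weak A (g := g) (fun K => (slopeSq_mono (hD K).1 _).comp (hD K).2)
    (fun K t => ⟨(slopeSq_mem (hD K).1 _ _).1, (slopeSq_mem (hD K).1 _ _).2.le⟩) ?_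
  rintro ψ hψ ⟨C, hC⟩
  have hC0 : 0 ≤ C := (abs_nonneg _).trans (hC 0)
  set φ : ℝ → ℝ := fun t => max (-1) (min 1 t) * ψ t with hφ
  have hφc : Continuous φ := by fun_prop
  have hcl : ∀ t, |max (-1) (min 1 t)| ≤ (1 : ℝ) := fun t =>
    abs_le.2 ⟨le_max_left _ _, max_le (by norm_num) (min_le_left _ _)⟩
  have hφb : ∀ t, |φ t| ≤ C := fun t => by
    rw [hφ]
    simp only [abs_mul]
    simpa using mul_le_mul (hcl t) (hC t) (abs_nonneg _) zero_le_one
  have hφe : ∀ t : ℝ, |t| ≤ 1 → φ t = t * ψ t := fun t ht => by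
    obtain ⟨h1, h2⟩ := abs_le.1 ht
    simp only [hφ, min_eq_right h2, max_eq_right h1]
  set J := ∫ R, φ (R 0 1) ∂A.law 2 with hJ
  have q1 := tendsto_q_overlap hf hs.smf hα hN Ps xs h hφc hφb
  have e1 : ∀ j, (fun z z' : Cfg (Ns j) => oldR z z' * ψ (oldR z z')) = fun z z' => φ (oldR z z') :=
    fun j => funext fun z => funext fun z' => (hφe _ (abs_oldR_le z z')).symm
  have p1 := tendsto_cav_sub_q hf hs hα hN Ps xs h
    (fun j z z' => φ (oldR z z')) (C := C) fun j z z' => hφb _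
  have p2 := tendsto_cav_sub_q hf hs hα hN Ps xs h
    (fun j z z' => sgn z.2 * sgn z'.2 * ψ (oldR z z')) (C := C) fun j z z' => by
      have hsg : ∀ b, |sgn b| = 1 := fun b => by cases b <;> simp [sgn]
      rw [abs_mul, abs_mul, hsg, hsg, one_mul, one_mul]
      exact hC _
  have s1 := tendsto_cav_sym hf hs.smf.smooth.continuous hα.le hN Ps xs hxs hgrow hψ hC
  simp only [e1] at s1
  have hlim : Tendsto (fun j => qAvg f α (Ns j) (xs j)
      (fun z z' => sgn z.2 * sgn z'.2 * ψ (oldR z z'))) atTop (𝓝 J) := by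
    have := ((s1.add p1).sub p2).add q1
    simp only [add_zero, sub_zero, zero_add] at this
    exact this.congr fun j => by ring
  rw [Metric.tendsto_atTop]
  intro ε hε
  obtain ⟨K0, hK0⟩ := eventually_atTop.1
    (eventually_q_spin hf hs.smf hα hN Ps xs h D hψ hC (half_pos hε))
  refine ⟨K0, fun K hK => ?_⟩
  have hle : |J - ∫ R, ψ (R 0 1) * g K (R 0 1) ∂A.law 2| ≤ ε / 2 :=
    le_of_tendsto (hlim.sub_const _).abs (hK0 K hK)
  have := A.prob 2
  have hm : Measurable fun R : Mat 2 => R 0 1 := measurable_entry 0 1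
  have hgm : Measurable (g K) := ((slopeSq_mono (hD K).1 _).comp (hD K).2).measurable
  have i1 : Integrable (fun R : Mat 2 => φ (R 0 1)) (A.law 2) :=
    Integrable.of_bound (hφc.measurable.comp hm).aestronglyMeasurable C
      (Eventually.of_forall fun R => hφb _)
  have i2 : Integrable (fun R : Mat 2 => ψ (R 0 1) * g K (R 0 1)) (A.law 2) := by
    refine Integrable.of_bound ((hψ.measurable.comp hm).mul (hgm.comp hm)).aestronglyMeasurable C
      (Eventually.of_forall fun R => ?_)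
    rw [Real.norm_eq_abs, abs_mul]
    refine (mul_le_mul (hC _) (?_ : |g K (R 0 1)| ≤ 1) (abs_nonneg _) hC0).trans_eq (mul_one C)
    exact abs_le.2 ⟨by linarith [(slopeSq_mem (hD K).1 (fun l => α * (D K).rval f l)
      ((D K).τ (R 0 1))).1], (slopeSq_mem (hD K).1 _ _).2.le⟩
  have e : ∫ R, ψ (R 0 1) * (R 0 1 - g K (R 0 1)) ∂A.law 2 =
      J - ∫ R, ψ (R 0 1) * g K (R 0 1) ∂A.law 2 := by
    rw [hJ, ← integral_sub i1 i2]
    refine integral_congr_ae ((A.bdd 2).mono fun R hR => ?_)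
    simp only [hφe _ (hR 0 1)]
    ring
  rw [Real.dist_eq, sub_zero, e]
  linarith

/-- Coefficients with small defect have gain at least `c - η`. -/
lemma cavDiff_ge_formula (hf : Pot f B) (hs : Sft f) (hα : 0 < α) {c : ℝ}
    (hc : ∀ v ∈ cubeValues f α, c ≤ v) {η : ℝ} (hη : 0 < η) :
    ∃ (P : ℕ) (δ : ℝ), 0 < δ ∧ ∀ᶠ N : ℕ in atTop, ∀ x ∈ box P,
      ∑ p, cubeErr hf α N x p ≤ δ → c - η ≤ cavDiff hf α N x := by
  by_contra hcon
  push Not at hcon
  have hex : ∀ j : ℕ, ∃ N, (j + 1) ^ 15 ≤ N ∧ ∃ x ∈ box j,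
      ∑ p, cubeErr hf α N x p ≤ 1 / ((j : ℝ) + 1) ∧ cavDiff hf α N x < c - η := fun j =>
    frequently_atTop.1 (hcon j (1 / ((j : ℝ) + 1)) (by positivity)) _
  choose Ns hNs xs hxs herr hbad using hex
  have hN : Tendsto Ns atTop atTop := tendsto_atTop_mono (fun j =>
    ((Nat.le_succ j).trans (Nat.le_self_pow (by norm_num) _)).trans (hNs j)) tendsto_id
  obtain ⟨φ, hφ, A, hA⟩ := exists_conv
    (fun j => pSys hf (Ns j) (α * ((Ns j : ℝ) + 1)) 0 (xs j)) (fun p n l Φ hΦ hΦb => by
      obtain ⟨D, hD⟩ := hΦb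
      refine squeeze_zero_norm' ?_
        (by simpa using (tendsto_one_div_add_atTop_nhds_zero_nat (𝕜 := ℝ)).const_mul |D|)
      filter_upwards [eventually_gt_atTop p] with j hj
      rw [Real.norm_eq_abs]
      refine (gg_defect_le (baseSys hf (Ns j) (α * ((Ns j : ℝ) + 1)) 0) (N := Ns j + 1)
        (cubeVec (Ns j + 1)) (measurable_of_finite (cubeVec (Ns j + 1)))
        (norm_cubeVec (Nat.succ_pos (Ns j))) (fun _ _ => rfl)
        (strength_pos (Ns j)) (hxs j) ⟨p, hj⟩ l hΦ.measurable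
        (fun R => (hD R).trans (le_abs_self D))).trans ?_
      refine mul_le_mul_of_nonneg_left ?_ (abs_nonneg D)
      exact (Finset.single_le_sum (fun q _ => cubeErr_nonneg hf α (Ns j) (xs j) q)
        (Finset.mem_univ (⟨p, hj⟩ : Fin j))).trans (by simpa [one_div] using herr j))
  set Ms : ℕ → ℕ := fun j => Ns (φ j) with hMs
  have hM : Tendsto Ms atTop atTop := hN.comp hφ.tendsto_atTop
  have hgrow : Tendsto (fun j => ((φ j : ℝ) + 1) ^ 2 * strength (Ms j) ^ 2 / ((Ms j : ℝ) + 1))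
      atTop (𝓝 0) := by
    refine squeeze_zero (fun j => by positivity) (fun j => ?_)
      ((tendsto_one_div_add_atTop_nhds_zero_nat (𝕜 := ℝ)).comp hφ.tendsto_atTop)
    set P : ℝ := (φ j : ℝ) + 1 with hP
    set n : ℝ := (Ms j : ℝ) + 1 with hn
    have hP0 : 0 < P := by positivity
    have hn0 : 0 < n := by positivity
    have hPn : P ^ 15 ≤ n := by
      have h : (((φ j + 1) ^ 15 : ℕ) : ℝ) ≤ (Ms j : ℝ) := Nat.cast_le.2 (hNs (φ j))
      push_cast at h
      linarith
    have h3 : P ^ 3 ≤ n ^ (1 / 5 : ℝ) := by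
      have h := Real.rpow_le_rpow (by positivity) hPn (show (0 : ℝ) ≤ 1 / 5 by norm_num)
      refine le_trans (le_of_eq ?_) h
      rw [← Real.rpow_natCast P 15, ← Real.rpow_mul hP0.le]
      norm_num
    have hs2 : strength (Ms j) ^ 2 = n / n ^ (1 / 5 : ℝ) := by
      rw [strength, ← hn, ← Real.rpow_natCast, ← Real.rpow_mul hn0.le, eq_div_iff (by positivity),
        ← Real.rpow_add hn0]
      norm_num
    show P ^ 2 * strength (Ms j) ^ 2 / n ≤ 1 / P
    rw [hs2, mul_div_assoc', div_div, mul_comm (n ^ (1 / 5 : ℝ)), ← div_div,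
      mul_div_cancel_right₀ _ hn0.ne', div_le_div_iff₀ (by positivity) hP0, one_mul]
    calc P ^ 2 * P = P ^ 3 := by ring
      _ ≤ _ := h3
  have hA2 : Conv (fun j => pSys hf (Ms j) (α * ((Ms j : ℝ) + 2)) 0 (xs (φ j))) A :=
    conv_next (Ns := Ms) (Ps := φ) (xs := fun j => xs (φ j)) hf hs.smf hα.le hA
  have hgain := tendsto_gain (Ns := Ms) (Ps := φ) (xs := fun j => xs (φ j)) hf hs.smf hα.le hA
  obtain ⟨Dd, -, hDd⟩ := hs.smf.exists_bound
  obtain ⟨L, hL, hval⟩ := value_ge_parisi hs.smf hα.le (fun x => (hDd x).1)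
    (show 0 < η / 8 by linarith)
  obtain ⟨C, hC⟩ := cavity_step hf hs.smf hα
  set t := 8 * |C| / η + 1 with ht
  have ht0 : 0 < t := by positivity
  have hCt : C / t ≤ η / 8 := by
    rw [div_le_iff₀ ht0, ht, mul_add, show η / 8 * (8 * |C| / η) = |C| by field_simp]
    linarith [le_abs_self C]
  obtain ⟨D, hD⟩ := exists_discrs A
  have hlog : ∀ᶠ K in atTop, α * logArr A (Real.exp B) (expW f) ≥
      α * (D K).C.logVal (incr (D K).q) (Real.exp B) (Low.heat (expW f) (D K).rest) - η / 8 := by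
    have h := ((tendsto_logVal D (weight_expW hf hs.smf)).const_mul α).eventually
      (eventually_lt_nhds (show α * logArr A (Real.exp B) (expW f) <
        α * logArr A (Real.exp B) (expW f) + η / 8 by linarith))
    filter_upwards [h] with K hK
    linarith
  have hst : ∀ᶠ K : ℕ in atTop, α * Dd ^ 2 * (2 / ((K + 2 : ℕ) : ℝ) + ∫ R, |R 0 1 -
      slopeSq (D K).C.cdf (fun l => α * (D K).rval f l) ((D K).τ (R 0 1))| ∂A.law 2) ≤ η / 8 := by
    have h := (((tendsto_const_div_atTop_nhds_zero_nat (2 : ℝ)).comp (tendsto_add_atTop_nat 2)).add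
      (tendsto_stationary hf hs hα hM φ (fun j => xs (φ j)) (fun j => hxs (φ j)) hgrow hA2 D
        hD)).const_mul (α * Dd ^ 2)
    simp only [add_zero, mul_zero] at h
    exact h.eventually (eventually_le_nhds (by linarith))
  obtain ⟨K, hK1, hK4, hK2, hK3⟩ :=
    (hlog.and (hst.and ((spin_lower hf hs.smf hα hM φ (fun j => xs (φ j)) hA2 D hL
      (show 0 < η / 8 by linarith)).and
        (drift_limit hf hs.smf hα hM φ (fun j => xs (φ j)) hA2 D
          (show 0 < η / (8 * t) by positivity))))).exists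
  have hsmall : ∀ᶠ j in atTop, t * (C / ((Ms j : ℝ) + 2)) < η / 8 := by
    have h : Tendsto (fun j => t * (C / ((Ms j : ℝ) + 2))) atTop (𝓝 (t * 0)) :=
      (tendsto_const_nhds.div_atTop
        (tendsto_atTop_add_const_right _ _ (tendsto_natCast_atTop_atTop.comp hM))).const_mul t
    exact h.eventually (eventually_lt_nhds (by linarith))
  have hgain' := hgain.eventually (eventually_gt_nhds
    (show α * logArr A (Real.exp B) (expW f) - η / 8 < α * logArr A (Real.exp B) (expW f) by linarith))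
  obtain ⟨j, hj2, hj3, hj4, hj5⟩ := (hK2.and (hK3.and (hsmall.and hgain'))).exists
  have hlp := (D K).levelParam (by omega)
  obtain ⟨-, hv⟩ := hval L le_rfl (D K).r (D K).C.cdf (D K).q hlp
  have hform := formula_le_parisi hs.smf (fun x => (hDd x).1) hα.le (hD K).1 (path_discr (D K)) hc
  have hsum := sum_lmass_le_mean (D K) (p := slopeSq (D K).C.cdf (fun l => α * (D K).rval f l))
    fun l => abs_le.2 ⟨by linarith [(slopeSq_mem (hD K).1 (fun l => α * (D K).rval f l) l).1],
      (slopeSq_mem (hD K).1 _ l).2.le⟩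
  have hsum' := mul_le_mul_of_nonneg_left hsum (show 0 ≤ α * Dd ^ 2 by positivity)
  have elog := Casc.logVal_eq (D K).C (D K).incr_nonneg ((weight_expW hf hs.smf).heat (D K).rest)
  rw [elog] at hK1
  have hstep := hC (Ms j) (φ j) (xs (φ j)) (α * ((D K).pairing f - (D K).rdiag f)) L t hL ht0
  have hb := hbad (φ j)
  have hdt := mul_le_mul_of_nonneg_left hj3 ht0.le
  have e : t * (η / (8 * t)) = η / 8 := by field_simp
  rw [e] at hdt
  rw [(D K).pairing_eq f] at hstep hdt
  simp only [Discr.rdiag, Discr.spinVal, Discr.rval] at hv hform hsum' hK1 hK4 hstep hdt hj2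
  simp only [cavDiff, hMs] at hb hstep hj5 hj2 hj4 hdt
  rw [mul_add] at hstep
  have etop : (fun y => Real.log (topW f (D K).q y)) =
      fun y => Real.log (Low.heat (expW f) (D K).rest y) := rfl
  rw [etop] at hv
  linarith

/-- The pressure is eventually above every lower bound of the formula. -/
theorem cube_lower {f : ℝ → ℝ} (hs : Sft f) {α : ℝ} (hα : 0 < α) {c : ℝ}
    (hc : ∀ v ∈ cubeValues f α, c ≤ v) {η : ℝ} (hη : 0 < η) :
    ∀ᶠ N : ℕ in atTop, c - η ≤ cubePressure f N ⌊α * N⌋₊ := by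
  obtain ⟨B, hP⟩ := exists_pot hs.smf
  refine pressure_of_cavity hP hs.smf.smooth.continuous hα (fun η hη => ?_) hη
  obtain ⟨P, δ, hδ, hsmall⟩ := cavDiff_ge_formula hP hs hα hc (show 0 < η / 2 by linarith)
  obtain ⟨C0, hC00, hC0⟩ := cavDiff_ge hP hs.smf hα
  refine ⟨P, ?_⟩
  set M := (|c| + C0) / δ with hM
  have hM0 : 0 ≤ M := by positivity
  have hlim : Tendsto (fun N => M * ∑ p, ∫ x in box P, cubeErr hP α N x p) atTop (𝓝 0) := by
    simpa using (tendsto_finsetSum Finset.univ fun p _ => (tendsto_integral_cubeErr hP hα P p).2).const_mul M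
  filter_upwards [hsmall, hlim.eventually (eventually_lt_nhds (show (0 : ℝ) < η / 2 by linarith))]
    with N hN hN2
  have hfin : IsFiniteMeasure (volume.restrict (box P)) := ⟨by simp [volume_box]⟩
  have hi : IntegrableOn (fun x => ∑ p, cubeErr hP α N x p) (box P) :=
    integrable_finsetSum _ fun p _ => (tendsto_integral_cubeErr hP hα P p).1 N
  have hmono : ∫ x in box P, (c - η / 2 - M * ∑ p, cubeErr hP α N x p) ≤
      ∫ x in box P, cavDiff hP α N x := by
    refine setIntegral_mono_on ((integrable_const _).sub (hi.const_mul M))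
      (integrableOn_cavDiff hP hs.smf.smooth.continuous hα.le N P)
      (MeasurableSet.univ_pi fun _ => measurableSet_Icc) fun x hx => ?_
    by_cases h : ∑ p, cubeErr hP α N x p ≤ δ
    · have := hN x hx h
      have := mul_nonneg hM0 (Finset.sum_nonneg (s := Finset.univ) fun p (_ : p ∈ Finset.univ) =>
        cubeErr_nonneg hP α N x p)
      linarith
    · have h1 : |c| + C0 ≤ M * ∑ p, cubeErr hP α N x p := by
        calc |c| + C0 = M * δ := by rw [hM]; field_simp
          _ ≤ _ := mul_le_mul_of_nonneg_left (not_le.1 h).le hM0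
      linarith [hC0 N P x, le_abs_self c]
  rw [integral_sub (integrable_const _) (hi.const_mul M), integral_const_mul,
    integral_finsetSum _ fun p _ => (tendsto_integral_cubeErr hP hα P p).1 N, setIntegral_const] at hmono
  simp only [measureReal_def, volume_box, ENNReal.toReal_one, one_smul] at hmono
  linarith

end Vale.Agent.P157F
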