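import Vale.Agent.P157F.Up.Run
import Vale.Agent.P157F.Pat.Refine
import Vale.Agent.P157.Model

/-!
P157: the upper bound on the cube.
-/

namespace Vale.Agent.P157F

open MeasureTheory Filter Vale.Agent.P157 Vale.Agent.P157.Low Vale.Agent.P166F
open scoped Topology

lemma confPressure_cube (f : ℝ → ℝ) {N : ℕ} (hN : 1 ≤ N) (M : ℕ) :
    Up.confPressure f (Up.cubeConf N hN) M = cubePressure f N M := by
  have e : ∀ (g : EuclideanSpace ℝ (Fin N)) (σ : Fin N → Bool),
      inner ℝ g (cubeVec N σ) = (∑ i, g i * (if σ i then 1 else -1)) / Real.sqrt N := fun g σ => by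
    rw [cubeVec, real_inner_smul_right, div_eq_inv_mul]
    congr 1
    simp only [PiLp.inner_apply, RCLike.inner_apply, conj_trivial, sgn]
    exact Finset.sum_congr rfl fun i _ => mul_comm _ _
  have hc : Fintype.card (Fin N → Bool) = 2 ^ N := by simp
  simp only [Up.confPressure, cubePressure, Up.cubeConf, e]
  rw [show ((2 : ℝ) ^ N) = ((2 ^ N : ℕ) : ℝ) by push_cast; ring, ← hc]
  rfl

/-- Every overlap path bounds the pressure from above. -/
theorem cube_upper {f : ℝ → ℝ} (hs : Smf f) {α : ℝ} (hα : 0 < α) {k : ℕ} {m p : Fin (k + 1) → ℝ}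
    (hm : Levels m) (hp : Path p) {η : ℝ} (hη : 0 < η) :
    ∀ᶠ N : ℕ in atTop, cubePressure f N ⌊α * N⌋₊ ≤ α * patVal f m p + entS m p + η := by
  obtain ⟨B, hf⟩ := exists_pot hs
  obtain ⟨L₀, hL₀⟩ := entS_coercive hm hp (-(2 * α * B + 3))
  set C : ∀ N, Up.Conf (N + 1) := fun N => Up.cubeConf (N + 1) (Nat.le_add_left 1 N)
  have h := Up.upper_conf hs hf hα hm hp C (X := xzero m) (E := entS m p) (L := max L₀ 0)
    (le_max_right _ _)
    (Eventually.of_forall fun N r _ => by
      rw [Up.nestRoot_freeG_cube (Nat.le_add_left 1 N) hm]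
      push_cast
      linarith)
    (fun r hr => le_entS hm hp hr)
    (fun r hr h => hL₀ r hr ((le_max_left _ _).trans h)) hη
  obtain ⟨N₀, hN₀⟩ := eventually_atTop.1 h
  filter_upwards [eventually_gt_atTop N₀] with N hN
  obtain ⟨M, rfl⟩ : ∃ M, N = M + 1 := ⟨N - 1, by omega⟩
  have := hN₀ M (by omega)
  rw [confPressure_cube] at this
  push_cast
  exact this

end Vale.Agent.P157F
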